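import Vale.Agent.P069.NonAUC

/-!
A reflexive asymptotically midpoint uniformly convex space without an equivalent asymptotically
uniformly convex norm.
-/

namespace Vale.Agent.Results.P069.ReflexiveAMUCNotAUC

open Vale.Agent.P069

theorem result :
    ∃ (X : Type) (_ : NormedAddCommGroup X) (_ : NormedSpace ℝ X),
      CompleteSpace X ∧ ¬ FiniteDimensional ℝ X ∧
        Function.Surjective (NormedSpace.inclusionInDoubleDual ℝ X) ∧
        AMUCRenormable X ∧ ¬ AUCRenormable X :=
  ⟨Vale.Agent.P069.X, inferInstance, inferInstance, inferInstance, not_finiteDimensional_X,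
    inclusion_dual_surjective, amucRenormable, not_aucRenormable⟩

end Vale.Agent.Results.P069.ReflexiveAMUCNotAUC
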